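import Vale.Agent.P113.Main

/-!
# P113, hand-in: the explicit force family and its dynamics

For every viscosity `ν > 0`, the explicit family of forces `forceM ν M w` (a closed formula in the
transition table of `M` and the digits of `w`), the point `aStar` and the open set `targetO`
have all the analytic and dynamical properties asked for in Q1.
-/

namespace Vale.Agent.Results.P113.ExplicitForce

open Set Vale.Agent.P113
open scoped ContDiff

theorem result (ν : ℝ) (hν : 0 < ν) :
    IsOpen targetO ∧ (∀ (i : Fin 3) (x : R3), x + Pi.single i 1 ∈ targetO ↔ x ∈ targetO) ∧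
    (∀ (M : TM) (w : List ℕ), ContDiff ℝ ∞ (fun q : ℝ × R3 => forceM ν M w q.1 q.2) ∧
      ∀ t, TorusPeriodic (forceM ν M w t)) ∧
    (∀ (M : TM) (w w' : List ℕ) (t : ℝ), 1 ≤ t →
      forceM ν M w t = forceM ν M w' t ∧ forceM ν M w (t + 12) = forceM ν M w t) ∧
    ∀ (M : TM) (w : List ℕ), M.ValidInput w →
      IsGlobalSmoothSolution ν (forceM ν M w) (velM M w) (fun _ _ => 0) ∧
      (∀ (T : ℝ), 0 < T → ∀ (u' : ℝ → R3 → R3) (p' : ℝ → R3 → ℝ),
        IsClassicalSolution ν (forceM ν M w) T u' p' →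
          ∀ t ∈ Icc (0 : ℝ) T, u' t = velM M w t ∧ p' t = fun _ => 0) ∧
      (∃ X : ℝ → R3, IsTrajectory (velM M w) aStar X) ∧
      ∀ X : ℝ → R3, IsTrajectory (velM M w) aStar X →
        ((∃ t : ℝ, 0 ≤ t ∧ X t ∈ targetO) ↔ M.Halts w) :=
  main_dynamics ν hν

end Vale.Agent.Results.P113.ExplicitForce
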