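import Vale.Agent.P113.TorusFinal

/-!
# P113, hand-in: affirmative answer to Q1, stated on the quotient torus `(ℝ/ℤ)^3`

The point, the open set, the forces, the velocity and the pressure all live on the quotient
`Fin 3 → AddCircle 1`; derivatives are taken in the coordinates of the covering `ℝ^3`.
-/

namespace Vale.Agent.Results.P113.OnTorus

open Set Vale.Agent.P113
open scoped ContDiff

theorem result (ν : ℝ) (hν : 0 < ν) (hc : ComputableReal ν) :
    ∃ (a : T3) (O : Set T3) (f : TM → List ℕ → ℝ → T3 → R3)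
      (compiler : TM × List ℕ → Nat.Partrec.Code) (T₀ : ℝ),
      IsOpen O ∧ Computable compiler ∧
      (∀ (M : TM) (w : List ℕ), ContDiff ℝ ∞ (fun q : ℝ × R3 => f M w q.1 (proj q.2)) ∧
        IsProgramFor (compiler (M, w)) (up (f M w))) ∧
      (∀ M : TM, ∃ P : ℝ, 0 < P ∧ ∀ (w w' : List ℕ) (t : ℝ), T₀ ≤ t →
        f M w t = f M w' t ∧ f M w (t + P) = f M w t) ∧
      ∀ (M : TM) (w : List ℕ), M.ValidInput w →
        ∃ (u : ℝ → T3 → R3) (p : ℝ → T3 → ℝ),
          IsGlobalSmoothSolution ν (up (f M w)) (up u) (up p) ∧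
          (∀ (T : ℝ), 0 < T → ∀ (u' : ℝ → T3 → R3) (p' : ℝ → T3 → ℝ),
            IsClassicalSolution ν (up (f M w)) T (up u') (up p') →
              ∀ t ∈ Icc (0 : ℝ) T, u' t = u t ∧ p' t = p t) ∧
          (∃ X : ℝ → R3, IsTorusTrajectory u a X) ∧
          ∀ X : ℝ → R3, IsTorusTrajectory u a X →
            ((∃ t : ℝ, 0 ≤ t ∧ proj (X t) ∈ O) ↔ M.Halts w) :=
  final_torus ν hν hc

end Vale.Agent.Results.P113.OnTorus
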